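import Vale.Agent.P248.Defs
import Vale.Agent.P254.SP.Stab

/-! P248, second question: the general (non-symmetric) Mahler conjecture. -/

set_option autoImplicit false

namespace Vale.Agent.Results.P248.GeneralMahler

open Vale.Agent.P248

/-- **The Mahler conjecture for general convex bodies, with its equality case.**  In every
dimension, every convex body `K` satisfies `P(K) ≥ (n+1)^(n+1) / (n!)²`, with equality exactly
when `K` is a simplex. -/
theorem result : ∀ (n : ℕ) (K : Set (EuclideanSpace ℝ (Fin n))), IsConvexBody K →
    ENNReal.ofReal (((n : ℝ) + 1) ^ (n + 1) / (n.factorial : ℝ) ^ 2) ≤ volumeProduct K ∧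
      (volumeProduct K = ENNReal.ofReal (((n : ℝ) + 1) ^ (n + 1) / (n.factorial : ℝ) ^ 2) ↔
        IsSimplex K) :=
  fun _ _ hK => Vale.Agent.P254.SP567.mahler_full_of_stab Vale.Agent.P254.SP.stab hK

end Vale.Agent.Results.P248.GeneralMahler
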